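import Vale.Agent.P127.Core

/-!
P127, Q2 for a class of sets: Kakeya sets with a Hoelder choice of segments on some open patch of
directions have positive measure, hence full Hausdorff dimension.
-/

open MeasureTheory Set Filter Topology Function Metric
open scoped NNReal ENNReal

namespace Vale.Agent.Results.P127.HolderSelection

noncomputable section

open _root_.P127

/-- Normalization is Lipschitz outside the open unit ball. -/
theorem norm_normalize_sub_le {E : Type*} [NormedAddCommGroup E] [NormedSpace ℝ E] {x y : E}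
    (hx : 1 ≤ ‖x‖) (hy : 1 ≤ ‖y‖) : ‖‖x‖⁻¹ • x - ‖y‖⁻¹ • y‖ ≤ 2 * ‖x - y‖ := by
  have e : ‖x‖⁻¹ • x - ‖y‖⁻¹ • y = ‖x‖⁻¹ • (x - y) + (‖x‖⁻¹ - ‖y‖⁻¹) • y := by
    simp only [smul_sub, sub_smul]; abel
  have hx0 : 0 < ‖x‖ := by linarith
  have hy0 : 0 < ‖y‖ := by linarith
  rw [e]
  refine (norm_add_le _ _).trans ?_
  rw [norm_smul, norm_smul, Real.norm_of_nonneg (inv_nonneg.2 hx0.le), Real.norm_eq_abs]
  have h1 : ‖x‖⁻¹ * ‖x - y‖ ≤ ‖x - y‖ :=
    mul_le_of_le_one_left (norm_nonneg _) (inv_le_one_of_one_le₀ hx)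
  have h2 : |‖x‖⁻¹ - ‖y‖⁻¹| * ‖y‖ ≤ ‖x - y‖ := by
    have e2 : |‖x‖⁻¹ - ‖y‖⁻¹| * ‖y‖ = |‖y‖ - ‖x‖| * ‖x‖⁻¹ := by
      rw [inv_sub_inv hx0.ne' hy0.ne', abs_div, abs_mul, abs_of_pos hx0, abs_of_pos hy0]
      field_simp
    rw [e2, norm_sub_rev x y]
    exact le_trans (mul_le_of_le_one_right (abs_nonneg _) (inv_le_one_of_one_le₀ hx))
      (abs_norm_sub_norm_le y x)
  linarith

/-- The direction vector of height `σ` over `v`. -/
def wvec {m : ℕ} (i : Fin (m + 1)) (σ : ℝ) (v : Vec m) : EuclideanSpace ℝ (Fin (m + 1)) :=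
  WithLp.toLp 2 (i.insertNth σ v)

theorem wvec_self {m : ℕ} (i : Fin (m + 1)) (σ : ℝ) (v : Vec m) : wvec i σ v i = σ := by
  simp [wvec]

theorem wvec_succAbove {m : ℕ} (i : Fin (m + 1)) (σ : ℝ) (v : Vec m) (j : Fin m) :
    wvec i σ v (i.succAbove j) = v j := by simp [wvec]

theorem norm_wvec_sub_le {m : ℕ} (i : Fin (m + 1)) (σ : ℝ) (v v' : Vec m) :
    ‖wvec i σ v - wvec i σ v'‖ ≤ (m + 1 : ℕ) * ‖v - v'‖ := by
  rw [EuclideanSpace.norm_eq]
  refine (Real.sqrt_le_left (by positivity)).2 ?_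
  calc ∑ k, ‖(wvec i σ v - wvec i σ v') k‖ ^ 2 ≤ ∑ _k : Fin (m + 1), ‖v - v'‖ ^ 2 := by
        refine Finset.sum_le_sum fun k _ => pow_le_pow_left₀ (norm_nonneg _) ?_ 2
        obtain rfl | ⟨j, rfl⟩ := Fin.eq_self_or_eq_succAbove i k
        · simp [wvec]
        · simpa [wvec] using norm_le_pi_norm (v - v') j
    _ ≤ ((m + 1 : ℕ) * ‖v - v'‖) ^ 2 := by
        rw [Finset.sum_const, Finset.card_univ, Fintype.card_fin, nsmul_eq_mul, mul_pow]
        refine mul_le_mul_of_nonneg_right ?_ (by positivity)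
        exact_mod_cast Nat.le_self_pow two_ne_zero (m + 1)

theorem positive_volume (m : ℕ) (hm : 0 < m) (K U : Set (EuclideanSpace ℝ (Fin (m + 1))))
    (hU : IsOpen U) (hne : (U ∩ sphere 0 1).Nonempty)
    (a : EuclideanSpace ℝ (Fin (m + 1)) → EuclideanSpace ℝ (Fin (m + 1))) (C α : ℝ≥0)
    (hα : ((m : ℝ) - 1) / m < α) (hH : HolderOnWith C α a (U ∩ sphere 0 1))
    (hseg : ∀ e ∈ U ∩ sphere 0 1, ∀ t ∈ Icc (0 : ℝ) 1, a e + t • e ∈ K) :
    0 < volume K := by
  by_contra hK
  rw [not_lt, nonpos_iff_eq_zero] at hK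
  obtain ⟨e0, he0U, he0S⟩ := hne
  rw [mem_sphere_zero_iff_norm] at he0S
  obtain ⟨i, hi⟩ : ∃ i, e0 i ≠ 0 := by
    by_contra h
    push Not at h
    have : e0 = 0 := by ext k; simpa using h k
    simp [this] at he0S
  set σ : ℝ := |e0 i|⁻¹ * e0 i with hσ
  have hσ2 : σ * σ = 1 := by
    rw [hσ]; field_simp; rw [sq_abs]
  have hσ1 : |σ| = 1 := by
    rw [hσ, abs_mul, abs_inv, abs_abs, inv_mul_cancel₀ (abs_ne_zero.2 hi)]
  set v0 : Vec m := fun j => |e0 i|⁻¹ * e0 (i.succAbove j) with hv0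
  set w : Vec m → EuclideanSpace ℝ (Fin (m + 1)) := wvec i σ with hw
  have hwn : ∀ v, 1 ≤ ‖w v‖ := fun v => by
    have := PiLp.norm_apply_le (w v) i
    rwa [hw, wvec_self, Real.norm_eq_abs, hσ1] at this
  have hwc : Continuous w := by
    refine continuous_iff_continuousAt.2 fun x => tendsto_iff_norm_sub_tendsto_zero.2 ?_
    refine squeeze_zero (fun _ => norm_nonneg _) (fun y => norm_wvec_sub_le i σ y x) ?_
    simpa using (((continuous_id.sub (continuous_const (y := x))).norm.const_mul ((m + 1 : ℕ) : ℝ))).tendsto x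
  set e : Vec m → EuclideanSpace ℝ (Fin (m + 1)) := fun v => ‖w v‖⁻¹ • w v with he
  have hec : Continuous e :=
    (hwc.norm.inv₀ fun v => by linarith [hwn v]).smul hwc
  have heS : ∀ v, e v ∈ sphere (0 : EuclideanSpace ℝ (Fin (m + 1))) 1 := fun v => by
    rw [mem_sphere_zero_iff_norm, he, norm_smul, norm_inv, norm_norm,
      inv_mul_cancel₀ (by linarith [hwn v])]
  have hev0 : e v0 = e0 := by
    have h1 : w v0 = |e0 i|⁻¹ • e0 := by
      ext k
      obtain rfl | ⟨j, rfl⟩ := Fin.eq_self_or_eq_succAbove i k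
      · simp [hw, wvec_self, hσ]
      · simp [hw, wvec_succAbove, hv0]
    rw [he]
    simp only [h1, norm_smul, he0S, mul_one, norm_inv, Real.norm_eq_abs, abs_abs, inv_inv,
      smul_smul]
    rw [mul_inv_cancel₀ (abs_ne_zero.2 hi), one_smul]
  -- exponent at most one
  set α' : ℝ := min (α : ℝ) 1 with hα'
  have hm0 : (0 : ℝ) < m := Nat.cast_pos.2 hm
  have hfrac : 0 ≤ ((m : ℝ) - 1) / m :=
    div_nonneg (sub_nonneg.2 (Nat.one_le_cast.2 hm)) hm0.le
  have hαpos : 0 < (α : ℝ) := lt_of_le_of_lt hfrac hα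
  have hα'0 : 0 < α' := lt_min hαpos one_pos
  have hα'1 : α' ≤ 1 := min_le_right _ _
  have hα'm : (m : ℝ) - 1 < m * α' := by
    rw [hα', mul_min_of_nonneg _ _ hm0.le, lt_min_iff]
    refine ⟨?_, by linarith⟩
    rw [div_lt_iff₀ hm0] at hα
    linarith
  set C' : ℝ := C * (2 : ℝ) ^ ((α : ℝ) - α') with hC'
  have hhol : ∀ x ∈ U ∩ sphere 0 1, ∀ y ∈ U ∩ sphere 0 1, ‖a x - a y‖ ≤ C' * ‖x - y‖ ^ α' := by
    intro x hx y hy
    have h1 : dist (a x) (a y) ≤ (C : ℝ) * dist x y ^ (α : ℝ) := by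
      have h := hH x hx y hy
      rw [edist_dist, edist_dist, ENNReal.ofReal_rpow_of_nonneg dist_nonneg α.coe_nonneg,
        ← ENNReal.ofReal_coe_nnreal, ← ENNReal.ofReal_mul C.coe_nonneg] at h
      exact (ENNReal.ofReal_le_ofReal_iff (by positivity)).1 h
    rw [dist_eq_norm, dist_eq_norm] at h1
    refine h1.trans ?_
    rw [hC', mul_assoc]
    refine mul_le_mul_of_nonneg_left ?_ C.2
    rcases (norm_nonneg (x - y)).eq_or_lt with h | h
    · rw [← h, Real.zero_rpow hαpos.ne', Real.zero_rpow hα'0.ne', mul_zero]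
    · rw [← sub_add_cancel (α : ℝ) α', Real.rpow_add h, add_sub_cancel_right]
      refine mul_le_mul_of_nonneg_right (Real.rpow_le_rpow h.le ?_
        (sub_nonneg.2 (min_le_left _ _))) (by positivity)
      have hx1 : ‖x‖ = 1 := mem_sphere_zero_iff_norm.1 hx.2
      have hy1 : ‖y‖ = 1 := mem_sphere_zero_iff_norm.1 hy.2
      linarith [norm_sub_le x y]
  -- a small ball of parameters with a common interval of heights
  have hca : ContinuousOn a (U ∩ sphere 0 1) := by
    exact hH.continuousOn (NNReal.coe_pos.1 hαpos)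
  set A : Vec m → ℝ := fun v => σ * a (e v) i with hA
  have hmem : ∀ᶠ v in 𝓝 v0, e v ∈ U ∩ sphere 0 1 := by
    filter_upwards [hec.continuousAt.preimage_mem_nhds (by rw [hev0]; exact hU.mem_nhds he0U)]
      with v hv
    exact ⟨hv, heS v⟩
  have hae : ContinuousAt (fun v => a (e v)) v0 :=
    (hca (e v0) (hmem.self_of_nhds)).tendsto.comp
      (tendsto_nhdsWithin_iff.2 ⟨hec.continuousAt, hmem⟩)
  have hAc : ContinuousAt A v0 :=
    continuousAt_const.mul ((PiLp.continuous_apply 2 (fun _ : Fin (m + 1) => ℝ) i).continuousAt.comp hae)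
  set ν : ℝ := ‖w v0‖⁻¹ with hν
  have hν0 : 0 < ν := inv_pos.2 (by linarith [hwn v0])
  have hνc : ContinuousAt (fun v => ‖w v‖⁻¹) v0 :=
    (hwc.norm.inv₀ fun v => by linarith [hwn v]).continuousAt
  obtain ⟨r, hr, hball⟩ := nhds_basis_closedBall.eventually_iff.1
    (hmem.and ((hAc.eventually (Ioo_mem_nhds (show A v0 - ν / 4 < A v0 by linarith)
      (show A v0 < A v0 + ν / 4 by linarith))).and
      (hνc.eventually (lt_mem_nhds (show 3 * ν / 4 < ν by linarith)))))
  set b : Vec m → Vec m := fun v j => a (e v) (i.succAbove j) - A v * v j with hb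
  set R : ℝ := ‖v0‖ + r with hR
  set B : ℝ := |A v0| + ν with hB
  set CA : ℝ := C' * (2 * ((m + 1 : ℕ) : ℝ)) ^ α' with hCA
  set Cb : ℝ := CA + (CA * R + B * (2 * r) ^ (1 - α')) with hCb
  have hC'0 : 0 ≤ C' := by positivity
  have hbh : ∀ x ∈ closedBall v0 r, ∀ y ∈ closedBall v0 r, ‖b x - b y‖ ≤ Cb * ‖x - y‖ ^ α' := by
    intro x hx y hy
    obtain ⟨hx1, hx2, -⟩ := hball hx
    obtain ⟨hy1, hy2, -⟩ := hball hy
    have hd : ‖e x - e y‖ ≤ 2 * ((m + 1 : ℕ) : ℝ) * ‖x - y‖ := by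
      refine (norm_normalize_sub_le (hwn x) (hwn y)).trans ?_
      rw [mul_assoc]
      exact mul_le_mul_of_nonneg_left (norm_wvec_sub_le i σ x y) zero_le_two
    have ha' : ‖a (e x) - a (e y)‖ ≤ CA * ‖x - y‖ ^ α' := by
      refine (hhol _ hx1 _ hy1).trans ?_
      rw [hCA, mul_assoc C', ← Real.mul_rpow (by positivity) (norm_nonneg _)]
      exact mul_le_mul_of_nonneg_left (Real.rpow_le_rpow (norm_nonneg _) hd hα'0.le) hC'0
    have hcoord : ∀ k, |a (e x) k - a (e y) k| ≤ CA * ‖x - y‖ ^ α' := fun k => by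
      refine le_trans ?_ ha'
      simpa using PiLp.norm_apply_le (a (e x) - a (e y)) k
    have hxy : ‖x - y‖ ≤ (2 * r) ^ (1 - α') * ‖x - y‖ ^ α' := by
      rcases (norm_nonneg (x - y)).eq_or_lt with h | h
      · rw [← h, Real.zero_rpow hα'0.ne', mul_zero]
      · calc ‖x - y‖ = ‖x - y‖ ^ (1 - α') * ‖x - y‖ ^ α' := by
              rw [← Real.rpow_add h, sub_add_cancel, Real.rpow_one]
          _ ≤ _ := by
              refine mul_le_mul_of_nonneg_right (Real.rpow_le_rpow h.le ?_ (by linarith))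
                (by positivity)
              rw [mem_closedBall, dist_eq_norm] at hx hy
              linarith [norm_sub_le_norm_sub_add_norm_sub x v0 y, norm_sub_rev v0 y]
    have hCA0 : 0 ≤ CA := by positivity
    have hB0 : 0 ≤ B := by positivity
    have hR0 : 0 ≤ R := by positivity
    refine (pi_norm_le_iff_of_nonneg (by positivity)).2 fun j => ?_
    rw [Real.norm_eq_abs, Pi.sub_apply, hb]
    have e1 : a (e x) (i.succAbove j) - A x * x j - (a (e y) (i.succAbove j) - A y * y j)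
        = (a (e x) (i.succAbove j) - a (e y) (i.succAbove j))
          - ((A x - A y) * x j + A y * (x j - y j)) := by ring
    simp only [e1]
    refine (abs_sub _ _).trans ?_
    rw [hCb, add_mul]
    refine add_le_add (hcoord _) ((abs_add_le _ _).trans ?_)
    rw [add_mul, abs_mul, abs_mul]
    refine add_le_add ?_ ?_
    · rw [mul_right_comm]
      refine mul_le_mul ?_ ?_ (abs_nonneg _) (by positivity)
      · rw [hA, ← mul_sub, abs_mul, hσ1, one_mul]
        exact hcoord i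
      · rw [mem_closedBall, dist_eq_norm] at hx
        have := norm_le_pi_norm x j
        rw [Real.norm_eq_abs] at this
        linarith [norm_le_norm_add_norm_sub' x v0]
    · rw [mul_assoc]
      refine mul_le_mul ?_ ((norm_le_pi_norm (x - y) j).trans hxy) (abs_nonneg _) hB0
      rw [hB, abs_le]
      constructor <;> linarith [hy2.1, hy2.2, neg_abs_le (A v0), le_abs_self (A v0)]
  -- extend `b` to the whole space
  set p : Vec m → Vec m := fun v j => max (v0 j - r) (min (v0 j + r) (v j)) with hp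
  have hpmem : ∀ v, p v ∈ closedBall v0 r := fun v => by
    rw [mem_closedBall, dist_eq_norm]
    refine (pi_norm_le_iff_of_nonneg hr.le).2 fun j => ?_
    rw [Real.norm_eq_abs, Pi.sub_apply, hp, abs_le]
    constructor
    · linarith [le_max_left (v0 j - r) (min (v0 j + r) (v j))]
    · linarith [max_le (show v0 j - r ≤ v0 j + r by linarith) (min_le_left (v0 j + r) (v j))]
  have hpfix : ∀ v ∈ closedBall v0 r, p v = v := fun v hv => by
    rw [mem_closedBall, dist_eq_norm] at hv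
    funext j
    have := (norm_le_pi_norm (v - v0) j).trans hv
    rw [Real.norm_eq_abs, Pi.sub_apply, abs_le] at this
    simp only [hp]
    rw [min_eq_right (by linarith), max_eq_right (by linarith)]
  have hplip : ∀ x y, ‖p x - p y‖ ≤ ‖x - y‖ := fun x y => by
    refine (pi_norm_le_iff_of_nonneg (norm_nonneg _)).2 fun j => ?_
    refine le_trans ?_ (norm_le_pi_norm (x - y) j)
    simp only [Real.norm_eq_abs, Pi.sub_apply, hp]
    refine (abs_max_sub_max_le_max _ _ _ _).trans (max_le (by simp) ?_)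
    exact (abs_min_sub_min_le_max _ _ _ _).trans (max_le (by simp) le_rfl)
  have hCb0 : 0 ≤ Cb := by positivity
  -- slices of a null set
  obtain ⟨K', hKK', hK'm, hK'0⟩ := exists_measurable_superset_of_null hK
  have hmp : MeasurePreserving
      (fun x : ℝ × Vec m => WithLp.toLp 2 (i.insertNth x.1 x.2))
      ((volume : Measure ℝ).prod (volume : Measure (Vec m)))
      (volume : Measure (EuclideanSpace ℝ (Fin (m + 1)))) :=
    (PiLp.volume_preserving_toLp (Fin (m + 1))).comp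
      ((volume_preserving_piFinSuccAbove (fun _ : Fin (m + 1) => ℝ) i).symm _)
  have hprod := hmp.measure_preimage hK'm.nullMeasurableSet
  rw [hK'0] at hprod
  have hslice := Measure.measure_ae_null_of_prod_null hprod
  rw [Filter.EventuallyEq, ae_iff] at hslice
  simp only [Pi.zero_apply] at hslice
  -- infinitely many good heights
  set T : Set ℝ := {τ | τ ∈ Ioo (A v0 + ν / 4) (A v0 + ν / 2) ∧
    volume ((fun v => b v + τ • v) '' closedBall v0 r) = 0} with hT
  have hTinf : T.Infinite := by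
    intro hfin
    have h1 : volume T = 0 := hfin.measure_zero _
    set N := {c : ℝ | ¬volume (Prod.mk c ⁻¹'
      ((fun x : ℝ × Vec m => WithLp.toLp 2 (i.insertNth x.1 x.2)) ⁻¹' K')) = 0} with hN
    have h2 : volume ((fun τ => σ * τ) ⁻¹' N) = 0 := by
      rw [Real.volume_preimage_mul_left (fun h => by rw [h, zero_mul] at hσ2; norm_num at hσ2),
        hslice, mul_zero]
    have h3 : Ioo (A v0 + ν / 4) (A v0 + ν / 2) ⊆ T ∪ (fun τ => σ * τ) ⁻¹' N := by
      intro τ hτ
      by_cases hN' : σ * τ ∈ N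
      · exact Or.inr hN'
      refine Or.inl ⟨hτ, measure_mono_null ?_ (not_not.1 hN')⟩
      rintro _ ⟨v, hv, rfl⟩
      obtain ⟨hv1, hv2, hv3⟩ := hball hv
      have ht : (τ - A v) * ‖w v‖ ∈ Icc (0 : ℝ) 1 := by
        have hwp : 0 < ‖w v‖ := by linarith [hwn v]
        refine ⟨mul_nonneg (by linarith [hv2.2, hτ.1]) hwp.le, ?_⟩
        rw [← le_div_iff₀ hwp, one_div]
        linarith [hv2.1, hτ.2]
      have := hKK' (hseg (e v) hv1 _ ht)
      show WithLp.toLp 2 (i.insertNth (σ * τ) (b v + τ • v)) ∈ K'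
      convert this using 1
      rw [he, smul_smul, mul_assoc (τ - A v), mul_inv_cancel₀ (by linarith [hwn v]), mul_one]
      ext k
      rcases Fin.eq_self_or_eq_succAbove i k with hk | ⟨j, rfl⟩
      · rw [hk]
        simp only [Fin.insertNth_apply_same, PiLp.add_apply, PiLp.smul_apply, smul_eq_mul, hw,
          wvec_self, hA, he]
        linear_combination (a (‖wvec i σ v‖⁻¹ • wvec i σ v) i) * hσ2
      · simp only [Fin.insertNth_apply_succAbove, Pi.add_apply, Pi.smul_apply, PiLp.add_apply,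
          PiLp.smul_apply, smul_eq_mul, hw, wvec_succAbove, hb, hA, he]
        ring
    have h4 := measure_mono_null h3 (measure_union_null h1 h2)
    rw [Real.volume_Ioo, ENNReal.ofReal_eq_zero] at h4
    linarith
  refine core hm (fun v => b (p v)) Cb α' hCb0 hα'0 hα'1 hα'm (fun x y => ?_) v0 r hr T hTinf
    fun τ hτ => ?_
  · refine (hbh _ (hpmem x) _ (hpmem y)).trans (mul_le_mul_of_nonneg_left ?_ hCb0)
    exact Real.rpow_le_rpow (norm_nonneg _) (hplip x y) hα'0.le
  · refine measure_mono_null ?_ hτ.2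
    rintro _ ⟨v, hv, rfl⟩
    exact ⟨v, hv, by simp only [hpfix v hv]⟩

/-- If a set `K` in `ℝⁿ` contains, for every direction in a nonempty open patch of the sphere, a
unit segment in that direction chosen Hoelder continuously with exponent above `(n - 2) / (n - 1)`,
then `K` has positive Lebesgue measure and Hausdorff dimension `n`. -/
theorem holder (n : ℕ) (hn : 2 ≤ n) (K U : Set (EuclideanSpace ℝ (Fin n)))
    (hU : IsOpen U) (hne : (U ∩ sphere 0 1).Nonempty)
    (a : EuclideanSpace ℝ (Fin n) → EuclideanSpace ℝ (Fin n)) (C α : ℝ≥0)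
    (hα : ((n : ℝ) - 2) / ((n : ℝ) - 1) < α) (hH : HolderOnWith C α a (U ∩ sphere 0 1))
    (hseg : ∀ e ∈ U ∩ sphere 0 1, ∀ t ∈ Icc (0 : ℝ) 1, a e + t • e ∈ K) :
    0 < volume K ∧ dimH K = (n : ℝ≥0∞) := by
  obtain ⟨m, rfl⟩ : ∃ m, n = m + 1 := ⟨n - 1, by omega⟩
  have hv : 0 < volume K := by
    refine positive_volume m (by omega) K U hU hne a C α ?_ hH hseg
    convert hα using 2 <;> push_cast <;> ring
  refine ⟨hv, le_antisymm ?_ ?_⟩
  · refine (dimH_mono (subset_univ K)).trans ?_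
    rw [Real.dimH_univ_eq_finrank]
    simp
  · set S : Set (Fin (m + 1) → ℝ) := WithLp.ofLp '' K with hS
    have h1 : dimH S ≤ dimH K :=
      (PiLp.lipschitzWith_ofLp 2 (fun _ : Fin (m + 1) => ℝ)).dimH_image_le K
    have h2 : volume S = volume K := by
      have e1 : S = WithLp.toLp 2 ⁻¹' K := by
        ext x
        exact ⟨fun ⟨y, hy, hyx⟩ => by rw [← hyx]; exact hy, fun hx => ⟨_, hx, rfl⟩⟩
      rw [e1]
      exact (PiLp.volume_preserving_toLp (Fin (m + 1))).measure_preimage_emb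
        (MeasurableEquiv.toLp 2 (Fin (m + 1) → ℝ)).measurableEmbedding K
    have h3 : (μH[((m + 1 : ℕ) : ℝ≥0)] : Measure (Fin (m + 1) → ℝ)) S ≠ 0 := by
      have : (((m + 1 : ℕ) : ℝ≥0) : ℝ) = (Fintype.card (Fin (m + 1)) : ℝ) := by simp
      rw [this, hausdorffMeasure_pi_real, h2]
      exact hv.ne'
    calc ((m + 1 : ℕ) : ℝ≥0∞) = (((m + 1 : ℕ) : ℝ≥0) : ℝ≥0∞) := by simp
      _ ≤ dimH S := le_dimH_of_hausdorffMeasure_ne_zero h3
      _ ≤ dimH K := h1

/-- Selection on an open patch of a great subsphere, split among countably many Hoelder graphs. -/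
theorem result (n k : ℕ) (hk : 1 ≤ k) (K : Set (EuclideanSpace ℝ (Fin n)))
    (ι : EuclideanSpace ℝ (Fin (k + 1)) →ₗᵢ[ℝ] EuclideanSpace ℝ (Fin n))
    (U : Set (EuclideanSpace ℝ (Fin (k + 1)))) (hU : IsOpen U) (hne : (U ∩ sphere 0 1).Nonempty)
    (a : ℕ → EuclideanSpace ℝ (Fin (k + 1)) → EuclideanSpace ℝ (Fin n)) (C α : ℕ → ℝ≥0)
    (hα : ∀ j, ((k : ℝ) - 1) / k < α j) (hH : ∀ j, HolderOnWith (C j) (α j) (a j) (U ∩ sphere 0 1))
    (hK : IsClosed K ∨ ∀ j, a j = a 0)
    (hseg : ∀ e ∈ U ∩ sphere 0 1, ∃ j, ∀ t ∈ Icc (0 : ℝ) 1, a j e + t • ι e ∈ K) :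
    ((k + 1 : ℕ) : ℝ≥0∞) ≤ dimH K ∧ (k + 1 = n → 0 < volume K ∧ dimH K = (n : ℝ≥0∞)) := by
  set π := ι.toContinuousLinearMap.adjoint with hπ
  have hπι : ∀ x, π (ι x) = x := fun x => by
    have h := ι.toContinuousLinearMap.norm_map_iff_adjoint_comp_self.1 ι.norm_map
    exact congrArg (fun f => f x) h
  have hαpos : ∀ j, 0 < α j := fun j => by
    have : (0 : ℝ) ≤ ((k : ℝ) - 1) / k :=
      div_nonneg (sub_nonneg.2 (Nat.one_le_cast.2 hk)) k.cast_nonneg
    exact_mod_cast this.trans_lt (hα j)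
  -- one graph on a smaller patch
  obtain ⟨j, V, hV, hVne, hVU, hVseg⟩ : ∃ j, ∃ V : Set (EuclideanSpace ℝ (Fin (k + 1))),
      IsOpen V ∧ (V ∩ sphere 0 1).Nonempty ∧ V ⊆ U ∧
        ∀ e ∈ V ∩ sphere 0 1, ∀ t ∈ Icc (0 : ℝ) 1, a j e + t • ι e ∈ K := by
    rcases hK with hK | hK
    · set X := (U ∩ sphere (0 : EuclideanSpace ℝ (Fin (k + 1))) 1 : Set _) with hX
      have : LocallyCompactSpace X := (hU.isLocallyClosed.inter isClosed_sphere.isLocallyClosed).locallyCompactSpace
      have : Nonempty X := hne.to_subtype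
      set D : ℕ → Set X := fun j => {e | ∀ t ∈ Icc (0 : ℝ) 1, a j e + t • ι (e : EuclideanSpace ℝ (Fin (k + 1))) ∈ K}
        with hD
      have hDc : ∀ j, IsClosed (D j) := fun j => by
        have : D j = ⋂ t ∈ Icc (0 : ℝ) 1, (fun e : X => a j e + t • ι (e : EuclideanSpace ℝ (Fin (k + 1)))) ⁻¹' K := by
          ext e; simp [hD]
        rw [this]
        refine isClosed_biInter fun t _ => hK.preimage ?_
        exact ((hH j).continuousOn (hαpos j)).domRestrict.add
          ((ι.continuous.comp continuous_subtype_val).const_smul t)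
      have hDu : ⋃ j, D j = univ := eq_univ_of_forall fun e => mem_iUnion.2 (hseg e e.2)
      obtain ⟨j, hj⟩ := nonempty_interior_of_iUnion_of_closed hDc hDu
      obtain ⟨V, hV, hVe⟩ := isOpen_induced_iff.1 (isOpen_interior (s := D j))
      obtain ⟨e, he⟩ := hj
      have heV : (e : EuclideanSpace ℝ (Fin (k + 1))) ∈ V := by rw [← hVe] at he; exact he
      refine ⟨j, V ∩ U, hV.inter hU, ⟨e, ⟨heV, e.2.1⟩, e.2.2⟩, inter_subset_right, ?_⟩
      rintro x ⟨⟨hxV, hxU⟩, hxS⟩ t ht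
      have : (⟨x, hxU, hxS⟩ : X) ∈ interior (D j) := by rw [← hVe]; exact hxV
      exact interior_subset this t ht
    · refine ⟨0, U, hU, hne, Subset.rfl, fun e he t ht => ?_⟩
      obtain ⟨j, hj⟩ := hseg e he
      simpa [hK j] using hj t ht
  -- project to the span of the subsphere
  set Cπ : ℝ≥0 := ‖π‖₊
  have hH' : HolderOnWith (Cπ * (C j) ^ ((1 : ℝ≥0) : ℝ)) (1 * α j) (π ∘ a j) (V ∩ sphere 0 1) :=
    (π.lipschitz.holderWith.holderOnWith univ).comp ((hH j).mono (inter_subset_inter_left _ hVU))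
      (mapsTo_univ _ _)
  rw [one_mul] at hH'
  obtain ⟨hvol, hdim⟩ := holder (k + 1) (by omega) (π '' K) V hV hVne (π ∘ a j) _ (α j)
    (by push_cast; simpa [add_sub_assoc, show (1 : ℝ) - 2 = -1 by norm_num, ← sub_eq_add_neg] using hα j)
    hH' (fun e he t ht => ⟨_, hVseg e he t ht, by simp [hπι]⟩)
  have hd : ((k + 1 : ℕ) : ℝ≥0∞) ≤ dimH K := hdim ▸ π.lipschitz.dimH_image_le K
  refine ⟨hd, ?_⟩
  rintro rfl
  refine ⟨?_, le_antisymm ?_ hd⟩
  · set L := ι.toLinearIsometryEquiv rfl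
    have e : π '' K = L ⁻¹' K := by
      have hL : ∀ x, π x = L.symm x := fun x => by
        conv_lhs => rw [← L.apply_symm_apply x]
        exact hπι _
      rw [show (π : _ → _) = L.symm from funext hL]
      exact L.toEquiv.image_symm_eq_preimage K
    rw [e] at hvol
    calc (0 : ℝ≥0∞) < volume (L ⁻¹' K) := hvol
      _ = volume K := L.measurePreserving.measure_preimage_emb L.toMeasurableEquiv.measurableEmbedding K
  · refine (dimH_mono (subset_univ K)).trans ?_
    rw [Real.dimH_univ_eq_finrank]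
    simp

end

end Vale.Agent.Results.P127.HolderSelection
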